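import Vale.Agent.P183FG.Plane
import Vale.Agent.P183WA.Main
import Vale.Agent.P183RL.Defs

/-!
A symmetric noncentral element has many conjugates under the derived group: the global case.
-/

namespace Vale.Agent.P183FG

open Vale.Agent.P183CF Vale.Agent.P183WA Vale.Agent.P183NK Vale.Agent.P183NK.FS Module Subgroup

theorem famg : FAMg 18 := by
  intro p _ V _ _ _ S Z hZ _ x hx hs hxZ
  obtain ⟨K, η, hP, h1, h2⟩ := exists_pair hZ
  obtain ⟨F, _, _, _, φ, τ, hK⟩ := exists_real h1 h2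
  have := Real.fd (F := F) (V := V)
  have := hZ.toLoc.nontrivial
  have hη := hP.mem hZ
  have hxK := cent_anti (hP.le hZ) 1 hx
  have hT := hP.tg hZ hK le_rfl (e := dn η (hK.mem_cent.1 (hP.cent hZ hη)))
    (e' := dn (S.st η) (hK.mem_cent.1 (hP.cent hZ (hZ.star η hη)))) (fun _ => rfl) fun _ => rfl
  have h3 := typed (x := dn x (hK.mem_cent.1 hxK)) hT (fun c => (em S.orth).imp
    (fun o => eq_bot_iff.2 fun _ ht => hK.Λ_bot o c ht) fun o => eq_top_iff.2 fun t _ =>
      hK.Λ_top o c t) (fun v w => by simpa [hs] using hK.adj hxK v w)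
    (fun v => congrArg (fun f : S.E => f v) (hx.2.2 η hη)) (by
      rintro ⟨a, ha⟩
      have h4 : x * η = S.sc F a * η := LinearMap.ext ha
      have h5 := mul_mem (hP.le hZ (hK.sc_mem a)) hη
      rw [← h4] at h5
      rcases hP with c | ⟨s, -⟩
      · exact hxZ (by simpa [c.1] using h5)
      · have h6 := add_mem h5 (hZ.star _ h5)
        rw [st_mul, hs, ← hx.2.2 _ (hZ.star η hη), ← mul_add, s.add, mul_one] at h6
        exact hxZ h6)
  have h4 : {z | z ∈ Z ∧ S.st z = z}.ncard ≤ {t | φ.σ t = t}.ncard := by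
    refine le_trans (Set.ncard_le_ncard ?_) (Set.ncard_image_le (f := S.sc F))
    rintro z ⟨hz, hz'⟩
    obtain ⟨t, rfl⟩ := hK.mem_K.1 (hP.of_sym hZ hz hz')
    exact ⟨t, Real.sc_inj (S := S) (by rw [← hK.st_sc, hz']), rfl⟩
  refine h4.trans (h3.trans (Nat.mul_le_mul_left _ (le_trans (Set.ncard_le_ncard ?_)
    (Set.ncard_image_le (f := fun y : S.E => (y : V → V))))))
  rintro _ ⟨g, hg, rfl⟩
  exact ⟨_, ⟨g, hg, rfl⟩, rfl⟩

end Vale.Agent.P183FG
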