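import Vale.Agent.P183WA.Geo

/-!
Conjugates of a symmetric map under the derived group: the isotropic case.
-/

set_option linter.unusedSectionVars false

namespace Vale.Agent.P183FG

open Vale.Agent.P183CF Vale.Agent.P183CF.Form Vale.Agent.P183WA Module Subgroup
open scoped commutatorElement

variable {F V G : Type} [Field F] [AddCommGroup V] [Module F V] [Group G] [DistribMulAction G V]
  {I b : Subgroup G} {φ : Form F V} {e e' x : V →ₗ[F] V} [Finite F] [FiniteDimensional F V]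
  [Finite G]

/-- The conjugates of `x` under the derived group of `I`. -/
def Orb (I : Subgroup G) (x : V →ₗ[F] V) : Set (V → V) :=
  (fun g : G => fun v => g • x (g⁻¹ • v)) '' (⁅I, I⁆ : Subgroup G)

theorem orb_finite : (Orb I x).Finite := (Set.toFinite _).image _

theorem one_le_orb : 1 ≤ (Orb I x).ncard :=
  (Set.ncard_pos orb_finite).2 ⟨_, 1, one_mem _, rfl⟩

theorem fam_le {T : Set F} {u : V} (P : F → V → Prop)
    (h : ∀ t ∈ T, ∃ g ∈ ⁅I, I⁆, g • u = u ∧ P t (g • x u))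
    (hP : ∀ s ∈ T, ∀ t ∈ T, ∀ y, P s y → P t y → s = t) : T.ncard ≤ (Orb I x).ncard := by
  choose! γ h1 h2 h3 using h
  refine Set.ncard_le_ncard_of_injOn (fun t v => γ t • x ((γ t)⁻¹ • v))
    (fun t ht => ⟨γ t, h1 t ht, rfl⟩) (fun s hs t ht c => hP s hs t ht _ (h3 s hs) ?_) orb_finite
  have := congrFun c u
  simp only [inv_smul_eq_iff.2 (h2 s hs).symm, inv_smul_eq_iff.2 (h2 t ht).symm] at this
  exact this ▸ h3 t ht

theorem exists_isom (L : V →ₗ[F] V) (hb : ∀ y z, φ.b (L y) (L z) = φ.b y z)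
    (hQ : ∀ y, φ.Q (L y) = φ.Q y) : ∃ f ∈ φ.Isom, ∀ y, f y = L y :=
  ⟨LinearEquiv.ofInjectiveEndo L ((injective_iff_map_eq_zero _).2 fun y hy =>
    φ.nondeg y fun z => by rw [← hb, hy, map_zero, LinearMap.zero_apply]), ⟨hb, hQ⟩, fun _ => rfl⟩

/-- A hyperbolic pair. -/
structure Hp (φ : Form F V) (u u' : V) : Prop where
  l : φ.Q u = 0
  r : φ.Q u' = 0
  lr : φ.b u u' = 1

namespace Hp

variable {u u' : V} (h : Hp φ u u')
include h

theorem ll : φ.b u u = 0 := φ.b_self_zero h.l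

theorem rr : φ.b u' u' = 0 := φ.b_self_zero h.r

theorem rl : φ.b u' u = φ.ε := by rw [φ.herm, h.lr]; simp

theorem dec (y : V) : ∃ (s t : F) (z : V), φ.b u z = 0 ∧ φ.b u' z = 0 ∧ y = s • u + t • u' + z :=
  ⟨φ.ε * φ.b u' y, φ.b u y, y - ((φ.ε * φ.b u' y) • u + φ.b u y • u'), by simp [h.ll, h.lr],
    by simp [h.rr, h.rl, mul_comm _ φ.ε], by abel⟩

theorem exists_torus {c : F} (h0 : c ≠ 0) (hc : φ.σ c = c) : ∃ d ∈ φ.Isom, ∀ y,
    d y = y + ((c - 1) * (φ.ε * φ.b u' y)) • u + ((c⁻¹ - 1) * φ.b u y) • u' := by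
  let L : V →ₗ[F] V := LinearMap.id + (((c - 1) * φ.ε) • φ.b u').smulRight u +
    ((c⁻¹ - 1) • φ.b u).smulRight u'
  have hL : ∀ (s t : F) z, φ.b u z = 0 → φ.b u' z = 0 →
      L (s • u + t • u' + z) = (c * s) • u + (c⁻¹ * t) • u' + z := fun s t z h1 h2 => by
    simp only [L, LinearMap.add_apply, LinearMap.id_apply, LinearMap.smulRight_apply,
      LinearMap.smul_apply, map_add, map_smul, h.ll, h.rr, h.lr, h.rl, h1, h2, smul_eq_mul,
      mul_assoc, ε_mul_ε]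
    module
  obtain ⟨d, hd, h1⟩ := exists_isom (φ := φ) L (fun y z => by
    obtain ⟨s, t, y, a1, a2, rfl⟩ := h.dec y
    obtain ⟨s', t', z, a3, a4, rfl⟩ := h.dec z
    rw [hL _ _ _ a1 a2, hL _ _ _ a3 a4]
    simp only [map_add, map_smul, LinearMap.add_apply, b_smul_left, h.ll, h.rr, h.lr, h.rl, a3, a4,
      φ.b_symm_zero a1, φ.b_symm_zero a2, smul_eq_mul, map_mul, map_inv₀, hc]
    field_simp
    ring) fun y => by
    obtain ⟨s, t, y, a1, a2, rfl⟩ := h.dec y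
    rw [hL _ _ _ a1 a2]
    have : φ.b ((c * s) • u) ((c⁻¹ * t) • u') = φ.b (s • u) (t • u') := by
      simp only [map_smul, b_smul_left, h.lr, smul_eq_mul, map_mul, hc]
      field_simp
    simp only [Q_add, φ.Q_smul_zero h.l, φ.Q_smul_zero h.r, this, map_add φ.b, LinearMap.add_apply,
      b_smul_left, a1, a2, mul_zero]
  exact ⟨d, hd, fun y => by rw [h1]; simp [L, mul_assoc]⟩

end Hp

theorem exists_hp (h : TG φ e e' I b) {u : V} (h0 : u ≠ 0) (hu : e u = u) (hQ : φ.Q u = 0) :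
    ∃ u', e' u' = u' ∧ Hp φ u u' := by
  obtain ⟨y, hy⟩ : ∃ y, φ.b u y ≠ 0 := not_forall.1 fun c => h0 (φ.nondeg u c)
  rcases h.typ with hp | ha
  · obtain ⟨f, -, h1, h2⟩ := φ.exists_hyp (X := ⊤) trivial trivial hQ hy
    exact ⟨f, h.pol' hp f, hQ, h1, h2⟩
  · have h1 : e' ((φ.b u y)⁻¹ • e' y) = (φ.b u y)⁻¹ • e' y := by rw [map_smul, ha.e'e']
    exact ⟨_, h1, hQ, ha.symm.Q_of h1, by simp [← h.adj, hu, hy]⟩

/-- Eichler maps in the derived group, in any rank. -/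
theorem eich (h : TG φ e e' I b) {u u' v : V} {l c : F} (hp : Hp φ u u') (hu : e u = u)
    (hu' : e' u' = u') (hv : e' v = v) (hv' : φ.b u' v = 0) (r : φ.RD u v l) (hl : Pol e ∨ l = 0)
    (h0 : c ≠ 0) (hc : φ.σ c = c) : ∃ g ∈ ⁅I, I⁆, ∀ y, g • y = y + φ.b u y • (c - 1) • v -
      (φ.ε * ((c - 1) * φ.b v y + (c * c * l + φ.ε * φ.σ l - c * φ.b v v) * φ.b u y)) • u := by
  obtain ⟨d, hd, h1⟩ := hp.exists_torus h0 hc
  obtain ⟨g, hg, h2⟩ := h.lift_comm hd (rho_isom r) (fun y => by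
    rcases h.typ with hq | ha
    · rw [hq, hq]
    · have h3 : e u' = 0 := by rw [← hu', ha.ee']
      rw [h1, h1, h.bXX ha hu (ha.ee y), ← h.adj', hu']
      simp [h3, hu]) fun y => by
    rcases h.typ with hq | ha
    · rw [hq, hq]
    · rcases hl with hq | rfl
      · rw [hq, hq]
      · exact h.rho_comm ha r hu hv y
  refine ⟨g, hg, fun y => ?_⟩
  have e1 : d u = c • u := by rw [h1, hp.ll, hp.rl]; simp [sub_smul]
  have e2 : d v = v := by rw [h1, r.orth, hv']; simp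
  rw [h2, commutatorElement_def, rho_conj r hd, rho_inv, LinearEquiv.mul_apply, rho_apply,
    rho_apply]
  simp only [e1, e2, map_add, map_sub, map_smul, map_neg, b_smul_left, hc, r.uu, r.vu, r.orth,
    smul_eq_mul, LinearMap.neg_apply]
  module

theorem exists_c (h : 4 ≤ {t | φ.σ t = t}.ncard) : ∃ c : F, φ.σ c = c ∧ c ≠ 0 ∧ c * c - 1 ≠ 0 := by
  by_contra k
  push Not at k
  have h1 : {t | φ.σ t = t} ⊆ {0, 1, -1} := fun t ht => by
    by_cases h0 : t = 0
    · exact Or.inl h0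
    · exact Or.inr (mul_self_eq_one_iff.1 (sub_eq_zero.1 (k t ht h0)))
  have h2 := Set.ncard_le_ncard h1
  have h3 := Set.ncard_insert_le (0 : F) {1, -1}
  have h4 := Set.ncard_insert_le (1 : F) {-1}
  rw [Set.ncard_singleton] at h4
  omega

theorem iso_case (h : TG φ e e' I b) (hq : 4 ≤ {t | φ.σ t = t}.ncard)
    (hc : ∀ v, x (e v) = e (x v)) {u : V} (hu : e u = u) (hQ : φ.Q u = 0) (hx : x u ∉ F ∙ u)
    (hd : Pol e → 3 ≤ finrank F V ∨ ∃ l, l ≠ 0 ∧ ∀ t, φ.σ t = t → t * l ∈ φ.Λ) :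
    {t | φ.σ t = t}.ncard ≤ (Orb I x).ncard := by
  obtain ⟨c, c1, c2, c3⟩ := exists_c hq
  have c4 : c - 1 ≠ 0 := fun k => c3 (by rw [sub_eq_zero.1 k]; simp)
  obtain ⟨u', hu', hp⟩ := exists_hp h (fun k => hx (by simp [k])) hu hQ
  have hw : e (x u) = x u := by rw [← hc, hu]
  have key : ∀ v, e' v = v → φ.b u v = 0 → φ.b u' v = 0 → ∀ t, φ.σ t = t → ∃ g ∈ ⁅I, I⁆,
      g • u = u ∧ ∃ l, g • x u = x u + (φ.b u (x u) * t) • v -
        (φ.ε * (t * φ.b v (x u) + l * φ.b u (x u))) • u := fun v h1 h2 h3 t ht => by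
    have h4 : e' ((t / (c - 1)) • v) = (t / (c - 1)) • v := by rw [map_smul, h1]
    obtain ⟨l, h5, h6⟩ : ∃ l, φ.Q ((t / (c - 1)) • v) = φ.md l ∧ (Pol e ∨ l = 0) := by
      rcases h.typ with hq | ha
      · obtain ⟨l, hl⟩ := φ.md_surj (φ.Q ((t / (c - 1)) • v))
        exact ⟨l, hl.symm, Or.inl hq⟩
      · exact ⟨0, by rw [ha.symm.Q_of h4, map_zero], Or.inr rfl⟩
    obtain ⟨g, hg, h7⟩ := eich h hp hu hu' h4 (by simp [h3]) ⟨hQ, by simp [h2], h5⟩ h6 c2 c1
    have h8 := h7 (x u)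
    rw [b_smul_left, map_div₀, map_sub, ht, c1, map_one, smul_smul, smul_smul, mul_assoc,
      ← mul_assoc (c - 1), mul_div_cancel₀ _ c4] at h8
    exact ⟨g, hg, by rw [h7]; simp [hp.ll, φ.b_symm_zero h2], _, h8⟩
  by_cases hb : φ.b u (x u) = 0
  · obtain ⟨w, h1, h2, h3⟩ := h.exists_dual (spl_span hu) hw hx
    rw [mem_perp_singleton] at h1
    have h4 : e' (w - (φ.ε * φ.b u' w) • u) = w - (φ.ε * φ.b u' w) • u := by
      rcases h.typ with hq | ha
      · exact h.pol' hq _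
      · simp [h.symm.bXX ha.symm hu' h2, h2]
    refine fam_le (u := u) (fun t y => y = x u - (φ.ε * t) • u) (fun t ht => ?_)
      fun s _ t _ y k1 k2 => ?_
    · obtain ⟨g, hg, k1, l, k2⟩ := key _ h4 (by simp [h1, hp.ll]) (by simp [hp.rl, mul_comm _ φ.ε])
        t ht
      exact ⟨g, hg, k1, by rw [k2]; simp [hb, h3]⟩
    · have := congrArg (φ.b u') (sub_right_injective (k1.symm.trans k2))
      simpa [hp.rl, φ.ε_ne] using this
  have hpol : Pol e := h.typ.resolve_right fun ha => hb (h.bXX ha hu hw)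
  rcases hd hpol with hd | ⟨l, l1, l2⟩
  · have d1 := φ.finrank_perp (F ∙ u ⊔ F ∙ u')
    have d2 := finrank_sup_span (F ∙ u) u'
    have d3 := finrank_span1 (F := F) u
    obtain ⟨v, hv, hv0⟩ := Submodule.exists_mem_ne_zero_of_ne_bot
      (p := φ.perp (F ∙ u ⊔ F ∙ u')) fun k => by rw [k, finrank_bot] at d1; omega
    rw [perp_sup, Submodule.mem_inf, mem_perp_singleton, mem_perp_singleton] at hv
    refine fam_le (u := u) (fun t y => ∃ s : F, y = x u + (φ.b u (x u) * t) • v - s • u)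
      (fun t ht => ?_) ?_
    · obtain ⟨g, hg, k1, l, k2⟩ := key v (h.pol' hpol v) hv.1 hv.2 t ht
      exact ⟨g, hg, k1, _, k2⟩
    · rintro s - t - y ⟨a, rfl⟩ ⟨a', k⟩
      have k1 := congrArg (φ.b u') k
      simp only [map_sub, map_add, map_smul, hv.2, hp.rl, smul_eq_mul, mul_zero, add_zero,
        sub_right_inj, mul_eq_mul_right_iff, φ.ε_ne, or_false] at k1
      rw [k1, sub_left_inj, add_right_inj] at k
      exact mul_left_cancel₀ hb (smul_left_injective F hv0 k)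
  · refine fam_le (u := u) (fun t y => y = x u - (φ.ε * ((c * c - 1) * (t * l) * φ.b u (x u))) • u)
      (fun t ht => ?_) fun s _ t _ y k1 k2 => ?_
    · obtain ⟨g, hg, h7⟩ := eich h hp hu hu' (map_zero e') (map_zero _) (l := t * l)
        ⟨hQ, map_zero _, by rw [Q_zero, φ.md_eq_zero.2 (l2 t ht)]⟩ (Or.inl hpol) c2 c1
      refine ⟨g, hg, by rw [h7]; simp [hp.ll], ?_⟩
      rw [h7, eq_neg_of_add_eq_zero_right (φ.Λ_max _ (l2 t ht))]
      simp [sub_eq_add_neg, add_mul]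
    · have := congrArg (φ.b u') (sub_right_injective (k1.symm.trans k2))
      simpa [hp.rl, φ.ε_ne, c3, l1, hb] using this

theorem bot_cases (h : φ.Λ = ⊥) : φ.ε = 1 ∧ ∀ t, φ.σ t = t := by
  have h1 : ∀ t, t = φ.ε * φ.σ t := fun t => sub_eq_zero.1 (AddSubgroup.mem_bot.1 (h ▸ φ.Λ_min t))
  have h2 : φ.ε = 1 := by simpa using (h1 1).symm
  exact ⟨h2, fun t => by simpa [h2] using (h1 t).symm⟩

theorem scalar_on {X : Submodule F V} (k : ∀ v ∈ X, ∃ a : F, a • v = x v) :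
    ∃ a : F, ∀ v ∈ X, x v = a • v := by
  by_cases h0 : X = ⊥
  · exact ⟨0, fun v hv => by rw [h0, Submodule.mem_bot] at hv; simp [hv]⟩
  obtain ⟨u, hu, h0⟩ := Submodule.exists_mem_ne_zero_of_ne_bot h0
  obtain ⟨a, ha⟩ := k u hu
  refine ⟨a, fun v hv => ?_⟩
  by_cases c : v ∈ F ∙ u
  · obtain ⟨t, ht⟩ := Submodule.mem_span_singleton.1 c
    rw [← ht, map_smul, ← ha, smul_comm]
  obtain ⟨a', ha'⟩ := k v hv
  obtain ⟨γ, hγ⟩ := k _ (add_mem hu hv)
  rw [map_add, ← ha, ← ha'] at hγ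
  have h2 : a' = γ := by
    by_contra c'
    refine c (Submodule.mem_span_singleton.2 ⟨(a' - γ)⁻¹ * (γ - a), ?_⟩)
    rw [mul_smul, inv_smul_eq_iff₀ (sub_ne_zero.2 c')]
    linear_combination (norm := module) hγ
  rw [h2, smul_add, add_left_inj] at hγ
  rw [← ha', h2, smul_left_injective F h0 hγ]

/-- A symmetric map that fixes all singular points is a scalar. -/
theorem exists_moved (h : TG φ e e' I b) (hs : ∀ v w, φ.b (x v) w = φ.b v (x w))
    (hx : ¬ ∃ a : F, ∀ v, x (e v) = a • e v) {u : V} (h0 : u ≠ 0) (hu : e u = u) (hQ : φ.Q u = 0) :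
    ∃ u, e u = u ∧ φ.Q u = 0 ∧ x u ∉ F ∙ u := by
  by_contra k
  push Not at k
  simp only [Submodule.mem_span_singleton] at k
  rcases h.typ with hq | hA
  · obtain ⟨a, ha⟩ := k u hu hQ
    refine hx ⟨a, fun v => ?_⟩
    obtain ⟨u', -, hp⟩ := exists_hp h h0 hu hQ
    obtain ⟨a', ha'⟩ := k u' (hq _) hp.r
    have key : ∀ z l, φ.RD u z l → φ.b u' z = 0 → l * (a - a') = 0 ∧ x z = a' • z :=
      fun z l r hz => by
      obtain ⟨γ, hγ⟩ := k (rho r u') (hq _) (by rw [(rho_isom r).2, hp.r])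
      rw [rho_apply, hp.lr, φ.b_symm_zero hz, map_sub, map_add, map_smul, map_smul, ← ha,
        ← ha'] at hγ
      have h1 : φ.b u (x z) = 0 := by rw [← hs, ← ha]; simp [r.orth]
      have h2 : φ.b u' (x z) = 0 := by rw [← hs, ← ha']; simp [hz]
      have h3 : γ = a' := by simpa [hp.lr, hp.ll, r.orth, h1] using congrArg (φ.b u) hγ
      have h4 := congrArg (φ.b u') hγ
      simp only [map_smul, map_sub, map_add, hp.rr, hp.rl, hz, h2, smul_eq_mul, h3] at h4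
      have h5 : l * (a - a') = 0 := by
        have := φ.ε_mul_ε
        linear_combination h4 - l * (a - a') * this
      refine ⟨h5, ?_⟩
      rw [h3] at hγ
      linear_combination (norm := module) -hγ + (φ.ε * h5) • u
    have h1 : a = a' := by
      by_cases hΛ : φ.Λ = ⊥
      · have := hs u u'
        rw [← ha, ← ha'] at this
        simpa [hp.lr, (bot_cases hΛ).2] using this
      · obtain ⟨⟨l, hl⟩, hl0⟩ := AddSubgroup.ne_bot_iff_exists_ne_zero.1 hΛ
        exact sub_eq_zero.1 ((mul_eq_zero.1 (key 0 l ⟨hQ, map_zero _, by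
          rw [Q_zero, φ.md_eq_zero.2 hl]⟩ (map_zero _)).1).resolve_left
            fun c => hl0 (Subtype.ext c))
    obtain ⟨s, t, z, z1, z2, k1⟩ := hp.dec (e v)
    obtain ⟨l, hl⟩ := φ.md_surj (φ.Q z)
    rw [k1, map_add, map_add, map_smul, map_smul, ← ha, ← ha', (key z l ⟨hQ, z1, hl.symm⟩ z2).2,
      ← h1]
    module
  · obtain ⟨a, ha⟩ := scalar_on (x := x) (X := LinearMap.range e) fun v hv =>
      k v (h.mem_X.1 hv) (hA.Q_of (h.mem_X.1 hv))
    exact hx ⟨a, fun v => ha _ ⟨v, rfl⟩⟩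

/-- Unitary planes are isotropic. -/
theorem exists_sing_two (h : ∃ t, φ.σ t ≠ t) (hd : 2 ≤ finrank F V) : ∃ u, u ≠ 0 ∧ φ.Q u = 0 := by
  have : Nontrivial V := nontrivial_of_finrank_pos (R := F) (by omega)
  obtain ⟨u, hu⟩ := exists_ne (0 : V)
  by_cases huu : φ.b u u = 0
  · exact ⟨u, hu, φ.Q_eq_zero_of_ne h huu⟩
  have d1 := φ.finrank_perp (F ∙ u)
  have d2 := finrank_span1 (F := F) u
  obtain ⟨y, hy, hy0⟩ := Submodule.exists_mem_ne_zero_of_ne_bot
    (p := φ.perp (F ∙ u)) fun k => by rw [k, finrank_bot] at d1; omega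
  rw [mem_perp_singleton] at hy
  have hσ : ∀ z, φ.σ (φ.b z z) = φ.ε * φ.b z z := fun z => by
    conv_rhs => rw [φ.herm z z]
    simp
  obtain ⟨c, hc⟩ := φ.exists_norm h (a := -φ.b y y / φ.b u u) (by
    rw [map_div₀, map_neg, hσ, hσ]
    have := φ.ε_ne
    field_simp)
  refine ⟨c • u + y, fun k => ?_, φ.Q_eq_zero_of_ne h ?_⟩
  · have h2 : c = 0 := by simpa [hy, huu] using congrArg (φ.b u) k
    exact hy0 (by simpa [h2] using k)
  · simp only [map_add, map_smul, LinearMap.add_apply, b_smul_left, hy, φ.b_symm_zero hy,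
      smul_eq_mul]
    field_simp at hc
    linear_combination hc

end Vale.Agent.P183FG
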