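import Vale.Agent.P183FG.Iso
import Mathlib.Algebra.Polynomial.Roots
import Mathlib.Algebra.Polynomial.Degree.SmallDegree

/-!
Conjugates of a symmetric map under the derived group: orthogonal planes.
-/

set_option linter.unusedSectionVars false

namespace Vale.Agent.P183FG

open Vale.Agent.P183CF Vale.Agent.P183CF.Form Vale.Agent.P183WA Module Subgroup
open scoped commutatorElement

variable {F V G : Type} [Field F] [AddCommGroup V] [Module F V] [Group G] [DistribMulAction G V]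
  {I b : Subgroup G} {φ : Form F V} {e e' x : V →ₗ[F] V} [Finite F] [FiniteDimensional F V]
  [Finite G]

open Polynomial in
theorem quad_le {r s t : F} (h : ¬ (r = 0 ∧ s = 0 ∧ t = 0)) :
    {y | r * y ^ 2 + s * y + t = 0}.ncard ≤ 2 := by
  classical
  have h0 : C r * X ^ 2 + C s * X + C t ≠ 0 := fun c => h (by
    have h1 := fun n => congrArg (coeff · n) c
    exact ⟨by simpa using h1 2, by simpa using h1 1, by simpa using h1 0⟩)
  have h1 : {y | r * y ^ 2 + s * y + t = 0} = (C r * X ^ 2 + C s * X + C t).roots.toFinset := by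
    ext y
    simp [h0]
  rw [h1, Set.ncard_coe_finset]
  exact (Multiset.toFinset_card_le _).trans ((card_roots' _).trans natDegree_quadratic_le)

theorem ncard_le_mul {α β : Type} {s : Set α} (hs : s.Finite) (f : α → β) {n : ℕ}
    (h : ∀ a ∈ s, {c | c ∈ s ∧ f c = f a}.ncard ≤ n) : s.ncard ≤ n * (f '' s).ncard := by
  classical
  lift s to Finset α using hs
  rw [← Finset.coe_image, Set.ncard_coe_finset, Set.ncard_coe_finset]
  refine Finset.card_le_mul_card_image s n fun c hc => ?_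
  obtain ⟨a, ha, rfl⟩ := Finset.mem_image.1 hc
  rw [← Set.ncard_coe_finset, Finset.coe_filter]
  exact h a ha

theorem span_two (hd : finrank F V = 2) {u w : V} (hu : u ≠ 0) (hw : w ∉ F ∙ u) (v : V) :
    ∃ s t : F, v = s • u + t • w := by
  have h1 : F ∙ u < F ∙ u ⊔ F ∙ w := lt_of_le_of_ne le_sup_left fun c => hw (c ▸ mem_sup_span_r _ w)
  have h2 := Submodule.finrank_lt_finrank_of_lt h1
  rw [finrank_span_singleton hu] at h2
  have h3 : F ∙ u ⊔ F ∙ w = ⊤ := Submodule.eq_top_of_finrank_eq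
    (le_antisymm (Submodule.finrank_le _) (by omega))
  obtain ⟨y, hy, t, rfl⟩ := mem_sup_span.1 (h3.ge (Submodule.mem_top (x := v)))
  obtain ⟨s, rfl⟩ := Submodule.mem_span_singleton.1 hy
  exact ⟨s, t, rfl⟩

theorem indep {u w : V} (hu : u ≠ 0) (hw : w ∉ F ∙ u) {s t : F} (h : s • u + t • w = 0) :
    s = 0 ∧ t = 0 := by
  have ht : t = 0 := by_contra fun c => hw (Submodule.mem_span_singleton.2 ⟨t⁻¹ * -s, by
    rw [mul_smul, inv_smul_eq_iff₀ c]
    linear_combination (norm := module) -h⟩)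
  exact ⟨by simpa [ht, hu] using h, ht⟩

section

variable (hΛ : φ.Λ = ⊥)
include hΛ

theorem b_comm (y z : V) : φ.b y z = φ.b z y := by
  rw [φ.herm, (bot_cases hΛ).1, (bot_cases hΛ).2, one_mul]

theorem Q_iff {y z : V} : φ.Q y = φ.Q z ↔ φ.q y = φ.q z := by
  rw [Form.Q, Form.Q, md_eq_iff, hΛ, AddSubgroup.mem_bot, sub_eq_zero]

theorem q_add (y z : V) : φ.q (y + z) = φ.q y + φ.q z + φ.b y z :=
  sub_eq_zero.1 (AddSubgroup.mem_bot.1 (hΛ ▸ φ.q_add y z))

theorem q_smul (c : F) (y : V) : φ.q (c • y) = c * c * φ.q y := by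
  have := sub_eq_zero.1 (AddSubgroup.mem_bot.1 (hΛ ▸ φ.q_smul c y))
  rwa [(bot_cases hΛ).2] at this

theorem b_two (y : V) : φ.b y y = 2 * φ.q y := by
  rw [φ.b_self, (bot_cases hΛ).1, (bot_cases hΛ).2]; ring

theorem q_comb (s t : F) (y z : V) :
    φ.q (s • y + t • z) = s * s * φ.q y + s * t * φ.b y z + t * t * φ.q z := by
  rw [q_add hΛ, q_smul hΛ, q_smul hΛ, map_smul, b_smul_left, (bot_cases hΛ).2, smul_eq_mul]; ring

theorem exists_refl {v : V} (hv : φ.q v ≠ 0) :
    ∃ r ∈ φ.Isom, r⁻¹ = r ∧ ∀ y, r y = y - (φ.b v y / φ.q v) • v := by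
  obtain ⟨r, hr, h1⟩ := exists_isom (φ := φ) (LinearMap.id - ((φ.q v)⁻¹ • φ.b v).smulRight v)
    (fun y z => by
      simp only [LinearMap.sub_apply, LinearMap.id_apply, LinearMap.smulRight_apply, map_sub,
        LinearMap.smul_apply, map_smul, b_smul_left, (bot_cases hΛ).2, smul_eq_mul, b_two hΛ,
        b_comm hΛ y v]
      field_simp
      ring) fun y => (Q_iff hΛ).2 (by
      have := q_comb hΛ 1 (-((φ.q v)⁻¹ * φ.b v y)) y v
      rw [one_smul, neg_smul, ← sub_eq_add_neg, b_comm hΛ y v] at this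
      refine this.trans ?_
      field_simp
      ring)
  have h2 : ∀ y, r y = y - (φ.b v y / φ.q v) • v := fun y => by rw [h1]; simp [div_eq_inv_mul]
  refine ⟨r, hr, inv_eq_of_mul_eq_one_right (LinearEquiv.ext fun y => ?_), h2⟩
  rw [LinearEquiv.mul_apply, h2, h2, map_sub, map_smul, b_two hΛ, smul_eq_mul, one_app, sub_sub,
    ← add_smul, sub_eq_self]
  convert zero_smul F v
  field_simp
  ring

theorem exists_rot (h : TG φ e e' I b) (hp : Pol e) {u v : V} (hu : φ.q u ≠ 0) (hv : φ.q v ≠ 0) :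
    ∃ g ∈ ⁅I, I⁆, φ.b u (g • u) = φ.q u * ((φ.b u v ^ 2 / (φ.q u * φ.q v) - 2) ^ 2 - 2) := by
  obtain ⟨r, hr, r1, r2⟩ := exists_refl hΛ hu
  obtain ⟨s, hs, s1, s2⟩ := exists_refl hΛ hv
  obtain ⟨g, hg, h1⟩ := h.lift_comm hr hs (fun y => by rw [hp, hp]) fun y => by rw [hp, hp]
  refine ⟨g, hg, ?_⟩
  simp only [h1, commutatorElement_def, r1, s1, LinearEquiv.mul_apply, r2, s2, map_sub, map_smul,
    b_two hΛ, b_comm hΛ v u, smul_eq_mul]
  field_simp
  ring

variable (h : TG φ e e' I b) (hp : Pol e) (hd : finrank F V = 2)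
include h hp hd

theorem card_om : Nat.card F ≤ 4 * ((⁅I, I⁆ : Subgroup G) : Set G).ncard + 2 := by
  have : Nontrivial V := nontrivial_of_finrank_pos (R := F) (by omega)
  obtain ⟨u, hu⟩ : ∃ u, φ.q u ≠ 0 := by
    by_contra c
    push Not at c
    obtain ⟨y, hy⟩ := exists_ne (0 : V)
    exact hy (φ.nondeg y fun z => by simpa [c] using (q_add hΛ y z).symm)
  have hu0 : u ≠ 0 := fun c => hu (by simpa [c] using q_smul hΛ 0 u)
  obtain ⟨w, -, hw⟩ : ∃ w ∈ (⊤ : Submodule F V), w ∉ F ∙ u := SetLike.not_le_iff_exists.1 fun c => by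
    have d1 := Submodule.finrank_mono c
    have d2 := finrank_span1 (F := F) u
    rw [finrank_top] at d1
    omega
  have hD : φ.b u w ^ 2 ≠ 4 * φ.q u * φ.q w := fun c => by
    obtain ⟨h1, h2⟩ := indep hu0 hw (s := φ.b u w) (t := -(2 * φ.q u)) (φ.nondeg _ fun y => by
      obtain ⟨s, t, rfl⟩ := span_two hd hu0 hw y
      simp only [map_add, map_smul, LinearMap.add_apply, b_smul_left, (bot_cases hΛ).2, b_two hΛ,
        b_comm hΛ w u, smul_eq_mul]
      linear_combination t * c)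
    refine hu0 (φ.nondeg u fun y => ?_)
    obtain ⟨s, t, rfl⟩ := span_two hd hu0 hw y
    simp [b_two hΛ, h1, neg_eq_zero.1 h2]
  have hq : ∀ t : F, φ.q (u + t • w) = φ.q w * t ^ 2 + φ.b u w * t + φ.q u := fun t => by
    have := q_comb hΛ 1 t u w
    rw [one_smul] at this
    rw [this]; ring
  let T : Set F := {t | φ.q (u + t • w) ≠ 0}
  let κ : F → F := fun t => φ.b u (u + t • w) ^ 2 / (φ.q u * φ.q (u + t • w))
  let ψ : F → F := fun k => φ.q u * ((k - 2) ^ 2 - 2)
  have h1 := Set.ncard_add_ncard_compl T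
  have h2 : Tᶜ.ncard ≤ 2 := by
    have := quad_le (r := φ.q w) (s := φ.b u w) (t := φ.q u) fun c => hu c.2.2
    simpa only [T, hq, Set.compl_ofPred, not_not] using this
  have h3 := ncard_le_mul (Set.toFinite T) κ (n := 2) fun a _ => (Set.ncard_le_ncard (by
    rintro t ⟨ht, c⟩
    simp only [κ] at c
    rw [div_eq_iff (mul_ne_zero hu ht), hq t, map_add, map_smul, b_two hΛ, smul_eq_mul] at c
    change _ = _
    linear_combination -c)).trans (quad_le (r := κ a * φ.q u * φ.q w - φ.b u w ^ 2)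
      (s := κ a * φ.q u * φ.b u w - 4 * φ.q u * φ.b u w)
      (t := κ a * φ.q u * φ.q u - 4 * φ.q u * φ.q u) fun c => hD (by
        have : κ a = 4 := mul_right_cancel₀ (mul_ne_zero hu hu) (by linear_combination c.2.2)
        rw [this] at c
        linear_combination -c.1))
  have h4 := ncard_le_mul (Set.toFinite (κ '' T)) ψ (n := 2) fun a _ => (Set.ncard_le_ncard (by
    rintro t ⟨-, c⟩
    change _ = _
    linear_combination c)).trans (quad_le (r := φ.q u) (s := -4 * φ.q u) (t := 2 * φ.q u - ψ a)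
      fun c => hu c.1)
  have h5 : (ψ '' (κ '' T)).ncard ≤
      ((fun g : G => φ.b u (g • u)) '' (⁅I, I⁆ : Subgroup G)).ncard := Set.ncard_le_ncard (by
    rintro _ ⟨_, ⟨t, ht, rfl⟩, rfl⟩
    exact exists_rot hΛ h hp hu ht)
  have h6 := Set.ncard_image_le (f := fun g : G => φ.b u (g • u))
    (s := (⁅I, I⁆ : Subgroup G))
  omega

theorem card_cent (hs : ∀ v w, φ.b (x v) w = φ.b v (x w)) {u : V} (hx : x u ∉ F ∙ u) :
    {g | g ∈ I ∧ ∀ v, g • x v = x (g • v)}.ncard ≤ 4 := by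
  have hu : u ≠ 0 := fun c => hx (by simp [c])
  choose α β h1 using span_two hd hu hx
  have hβ : (2 : F) = 0 → φ.b u (x u) ≠ 0 := fun h2 c => hu (φ.nondeg u fun y => by
    rw [h1 y]; simp [c, b_two hΛ, h2])
  obtain ⟨μ, hμ⟩ : ∃ μ : F, ∀ s t : F, 2 * s + t * β (x (x u)) = 0 →
      s * φ.b u (x u) = t * (α (x (x u)) * φ.q u - φ.q (x u)) → s = μ * t := by
    by_cases h2 : (2 : F) = 0
    · exact ⟨(α (x (x u)) * φ.q u - φ.q (x u)) / φ.b u (x u), fun s t _ c => by
        rw [div_mul_eq_mul_div, eq_div_iff (hβ h2), c, mul_comm]⟩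
    · exact ⟨-β (x (x u)) / 2, fun s t c _ => by
        rw [div_mul_eq_mul_div, eq_div_iff h2]; linear_combination c⟩
  have h2 := quad_le (r := (1 : F)) (s := 0) (t := -1) fun c => one_ne_zero c.1
  have h3 := quad_le (r := μ * μ + α (x (x u))) (s := 0) (t := -1) fun c =>
    one_ne_zero (neg_eq_zero.1 c.2.2)
  have h4 := Set.ncard_image_le (f := fun s : F => (s, (0 : F))) (s := {y | 1 * y ^ 2 + 0 * y + -1 = 0})
  have h5 := Set.ncard_image_le (f := fun t : F => (μ * t, t))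
    (s := {y | (μ * μ + α (x (x u))) * y ^ 2 + 0 * y + -1 = 0})
  refine (Set.ncard_le_ncard_of_injOn (fun g => (α (g • u), β (g • u))) (fun g hg => ?_)
    (fun g hg k hk c => ?_)).trans ((Set.ncard_union_le _ _).trans
      (add_le_add (h4.trans h2) (h5.trans h3)))
  · obtain ⟨f, hf, -, f1⟩ := h.lin g hg.1
    have f2 := hg.2
    simp only [f1] at f2 ⊢
    generalize hs' : α (f u) = s
    generalize ht' : β (f u) = t
    have e1 : f u = s • u + t • x u := by rw [← hs', ← ht', ← h1]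
    have e2 : ∀ v, f v = s • v + t • x v := fun v => by
      rw [h1 v, map_add, map_smul, map_smul, f2, e1]
      simp only [map_add, map_smul]
      module
    have e3 : f (f u) = u := φ.b_inj (LinearMap.ext fun y => by
      rw [← hf.1 u y, e2 (f u), e2 y]
      simp only [map_add, map_smul, LinearMap.add_apply, b_smul_left, (bot_cases hΛ).2, hs,
        smul_eq_mul])
    rw [e2, e1, map_add, map_smul, map_smul, h1 (x (x u))] at e3
    obtain ⟨e4, e5⟩ := indep hu hx (s := s * s + t * t * α (x (x u)) - 1)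
      (t := t * (2 * s + t * β (x (x u)))) (by linear_combination (norm := module) e3)
    by_cases c : t = 0
    · exact Or.inl ⟨s, by rw [c] at e4; change _ = _; linear_combination e4, by rw [c]⟩
    have e6 := (Q_iff hΛ).1 (hf.2 u)
    rw [e1, q_comb hΛ] at e6
    have e7 := hμ s t ((mul_eq_zero.1 e5).resolve_left c) (mul_left_cancel₀ c (by
      linear_combination e6 - φ.q u * e4))
    exact Or.inr ⟨t, by rw [e7] at e4; change _ = _; linear_combination e4, by rw [e7]⟩
  · have e1 : g • u = k • u := by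
      simp only [Prod.mk.injEq] at c
      rw [h1 (g • u), h1 (k • u), c.1, c.2]
    rw [← inv_mul_eq_one]
    refine h.faith _ fun v => ?_
    rw [mul_smul, inv_smul_eq_iff, h1 v]
    simp only [smul_add, h.smul_comm' hg.1, h.smul_comm' hk.1, hg.2, hk.2, e1]

theorem plane_case (hs : ∀ v w, φ.b (x v) w = φ.b v (x w)) {u : V} (hx : x u ∉ F ∙ u) :
    Nat.card F ≤ 18 * (Orb I x).ncard := by
  have h1 := card_om hΛ h hp hd
  have h2 := one_le_orb (I := I) (x := x)
  have h3 : _ ≤ 4 * (Orb I x).ncard := ncard_le_mul (Set.toFinite ((⁅I, I⁆ : Subgroup G) : Set G))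
    (fun g : G => fun v => g • x (g⁻¹ • v)) fun a ha => by
      refine le_trans (Set.ncard_le_ncard_of_injOn (fun g => a⁻¹ * g) (fun g hg => ?_)
        fun _ _ _ _ c => mul_left_cancel c) (card_cent hΛ h hp hd hs hx)
      refine ⟨commutator_le_self I (mul_mem (inv_mem ha) hg.1), fun v => ?_⟩
      have := congrFun hg.2 (g • v)
      simp only [inv_smul_smul] at this
      rw [mul_smul, mul_smul, this, inv_smul_smul]
  omega

end

/-- A symmetric noncentral map has many conjugates. -/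
theorem typed (h : TG φ e e' I b) (hΛ : (∀ t, φ.σ t = t) → φ.Λ = ⊥ ∨ φ.Λ = ⊤)
    (hs : ∀ v w, φ.b (x v) w = φ.b v (x w)) (hc : ∀ v, x (e v) = e (x v))
    (hx : ¬ ∃ a : F, ∀ v, x (e v) = a • e v) : {t | φ.σ t = t}.ncard ≤ 18 * (Orb I x).ncard := by
  have h1 := one_le_orb (I := I) (x := x)
  by_cases hq : {t | φ.σ t = t}.ncard ≤ 3
  · omega
  have key : ∀ u, u ≠ 0 → e u = u → φ.Q u = 0 → (Pol e → 3 ≤ finrank F V ∨
      ∃ l, l ≠ 0 ∧ ∀ t, φ.σ t = t → t * l ∈ φ.Λ) → {t | φ.σ t = t}.ncard ≤ 18 * (Orb I x).ncard :=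
    fun u h0 hu hQ hd => by
    obtain ⟨u, u1, u2, u3⟩ := exists_moved h hs hx h0 hu hQ
    have := iso_case h (by omega) hc u1 u2 u3 hd
    omega
  by_cases hp : Pol e
  swap
  · obtain ⟨v, hv⟩ : ∃ v, e v ≠ 0 := not_forall.1 fun c => hx ⟨0, fun v => by simp [c v]⟩
    exact key _ hv (h.ee v) (h.typ.resolve_left hp v).2.2.1 fun c => absurd c hp
  obtain ⟨u, hu⟩ : ∃ u, x u ∉ F ∙ u := not_forall.1 fun c => by
    obtain ⟨a, ha⟩ := scalar_on (x := x) (X := ⊤) fun v _ => Submodule.mem_span_singleton.1 (c v)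
    exact hx ⟨a, fun v => ha _ trivial⟩
  have hu0 : u ≠ 0 := fun c => hu (by simp [c])
  have hd : 2 ≤ finrank F V := by
    have d1 := Submodule.finrank_lt (s := F ∙ u) fun c => hu (c ▸ trivial)
    rw [finrank_span_singleton hu0] at d1
    omega
  by_cases h3 : 3 ≤ finrank F V
  · obtain ⟨v, -, v1, v2⟩ := φ.exists_sing ⊤ (by rwa [finrank_top])
    exact key v v1 (hp v) v2 fun _ => Or.inl h3
  by_cases hσ : ∀ t, φ.σ t = t
  · rcases hΛ hσ with c | c
    · exact (Set.ncard_le_card _).trans (plane_case c h hp (by omega) hs hu)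
    · exact key u hu0 (hp u) (φ.md_eq_zero.2 (c ▸ trivial)) fun _ =>
        Or.inr ⟨1, one_ne_zero, fun t _ => c ▸ trivial⟩
  have hσ' := not_forall.1 hσ
  obtain ⟨v, v1, v2⟩ := exists_sing_two hσ' hd
  obtain ⟨l, hl, hl0⟩ : ∃ l ∈ φ.Λ, l ≠ 0 := by
    by_contra c
    push Not at c
    exact hσ (bot_cases (eq_bot_iff.2 c)).2
  exact key v v1 (hp v) v2 fun _ => Or.inr ⟨l, hl0, fun t ht => φ.mem_Λ_of_ne hσ' (by
    rw [map_mul, ht]
    linear_combination t * φ.Λ_max l hl)⟩

end Vale.Agent.P183FG
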